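import Vale.Agent.P241.Bdl.K_F_Defs

/-! # Definitions for the statement on type functions -/

set_option autoImplicit false

namespace Vale.Agent.P241.F.Typ

open Vale.Agent.P241.F

/-- The conjugate subgroup `g H g⁻¹`. -/
def cj {G : FiniteGrp.{0}} (g : G) (H : Subgroup G) : Subgroup G :=
  H.map (MulAut.conj g).toMonoidHom

/-- `f` is the type function of the `G`-complex `X`: for every subgroup `H`, the fixed points
`X ^ H` are `K j`-acyclic exactly for `j < f H`. -/
def IsType (K : ℕ → Homology) {G : FiniteGrp.{0}} (X : GCx G) (f : Subgroup G → ℕ∞) : Prop :=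
  ∀ (H : Subgroup G) (j : ℕ), FixAcyclic (K j) X H ↔ (j : ℕ∞) < f H

end Vale.Agent.P241.F.Typ
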