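import Vale.Agent.P241.H700.Wedge

/-! # Finite wedges of induced complexes -/

set_option autoImplicit false

namespace Vale.Agent.P241.F.Typ

open Vale.Agent.P241.F

section Ind

variable {G : FiniteGrp.{0}} {ι : Type} (L : ι → Subgroup G) (Y : ∀ i, GCx (.of (L i)))

/-- Coset representatives. -/
noncomputable def rep (i : ι) (q : G ⧸ L i) : G := Quotient.out q

theorem mk_rep (i : ι) (q : G ⧸ L i) : (QuotientGroup.mk (rep L i q) : G ⧸ L i) = q :=
  Quotient.out_eq q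

/-- The cocycle. -/
noncomputable def coc (i : ι) (g : G) (q : G ⧸ L i) : L i :=
  ⟨(rep L i (g • q))⁻¹ * (g * rep L i q), by
    rw [← QuotientGroup.eq, mk_rep]
    conv_lhs => rw [← mk_rep L i q]
    rfl⟩

theorem coc_mul (i : ι) (g h : G) (q : G ⧸ L i) :
    coc L i (g * h) q = coc L i g (h • q) * coc L i h q := by
  apply Subtype.ext
  change (rep L i ((g * h) • q))⁻¹ * (g * h * rep L i q) =
    ((rep L i (g • h • q))⁻¹ * (g * rep L i (h • q))) * ((rep L i (h • q))⁻¹ * (h * rep L i q))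
  rw [mul_smul]
  group

theorem coc_one (i : ι) (q : G ⧸ L i) : coc L i 1 q = 1 := by
  apply Subtype.ext
  change (rep L i ((1 : G) • q))⁻¹ * (1 * rep L i q) = 1
  rw [one_smul]
  group

/-- The underlying based simplicial set: families with at most one entry off the base point. -/
def indB : BSS where
  S n := {f : ∀ i, G ⧸ L i → (Y i).S n // ∀ i q i' q', f i q ≠ (Y i).pt n →
    f i' q' ≠ (Y i').pt n → (⟨i, q⟩ : Σ i, G ⧸ L i) = ⟨i', q'⟩}
  pt n := ⟨fun i _ => (Y i).pt n, fun _ _ _ _ h => absurd rfl h⟩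
  op a f := ⟨fun i q => (Y i).op a (f.1 i q), fun i q i' q' h h' =>
    f.2 i q i' q' (fun e => h ((congrArg ((Y i).op a) e).trans ((Y i).op_pt a)))
      (fun e => h' ((congrArg ((Y i').op a) e).trans ((Y i').op_pt a)))⟩
  op_pt a := Subtype.ext (funext fun i => funext fun _ => (Y i).op_pt a)
  op_id f := Subtype.ext (funext fun i => funext fun q => (Y i).op_id (f.1 i q))
  op_comp a b f := Subtype.ext (funext fun i => funext fun q => (Y i).op_comp a b (f.1 i q))

/-- The action on families. -/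
noncomputable def actF (g : G) (n : ℕ) (f : ∀ i, G ⧸ L i → (Y i).S n) :
    ∀ i, G ⧸ L i → (Y i).S n :=
  fun i q => ((Y i).act (coc L i g (g⁻¹ • q))).f n (f i (g⁻¹ • q))

theorem actF_smul (g : G) (n : ℕ) (f : ∀ i, G ⧸ L i → (Y i).S n) (i : ι) (q : G ⧸ L i) :
    actF L Y g n f i (g • q) = ((Y i).act (coc L i g q)).f n (f i q) := by
  unfold actF
  rw [inv_smul_smul]

theorem actF_ext {n : ℕ} {f f' : ∀ i, G ⧸ L i → (Y i).S n} (g : G)
    (h : ∀ i q, f i (g • q) = f' i (g • q)) : f = f' := by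
  funext i q
  have := h i (g⁻¹ • q)
  rwa [smul_inv_smul] at this

theorem act_inv_act {A : FiniteGrp.{0}} (Z : GCx A) (a : A) (n : ℕ) (x : Z.S n) :
    (Z.act a⁻¹).f n ((Z.act a).f n x) = x := by
  rw [← Z.act_mul, inv_mul_cancel, Z.act_one]

theorem act_ne_pt {A : FiniteGrp.{0}} (Z : GCx A) (a : A) (n : ℕ) (x : Z.S n) :
    (Z.act a).f n x ≠ Z.pt n ↔ x ≠ Z.pt n := by
  constructor
  · rintro h rfl
    exact h ((Z.act a).f_pt n)
  · intro h e
    apply h
    rw [← act_inv_act Z a n x, e, (Z.act a⁻¹).f_pt]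

/-- The wedge over `i` of the induced complexes `G₊ ∧_{L i} Y i`. -/
noncomputable def ind : GCx G where
  toBSS := indB L Y
  act g :=
    { f := fun n f => ⟨actF L Y g n f.1, fun i q i' q' h h' => by
        have h1 := f.2 i (g⁻¹ • q) i' (g⁻¹ • q') ((act_ne_pt _ _ _ _).1 h)
          ((act_ne_pt _ _ _ _).1 h')
        have h2 : i = i' := congrArg Sigma.fst h1
        subst h2
        have h3 : g⁻¹ • q = g⁻¹ • q' := eq_of_heq (Sigma.mk.inj h1).2
        rw [smul_left_cancel g⁻¹ h3]⟩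
      f_pt := fun n => Subtype.ext (funext fun i => funext fun q => ((Y i).act _).f_pt n)
      f_op := fun a x => Subtype.ext (funext fun i => funext fun q =>
        ((Y i).act _).f_op a _) }
  act_one n x := Subtype.ext (actF_ext L Y 1 fun i q => by
    change actF L Y 1 n x.1 i ((1 : G) • q) = x.1 i ((1 : G) • q)
    rw [actF_smul, coc_one, one_smul]
    exact (Y i).act_one n _)
  act_mul g h n x := Subtype.ext (actF_ext L Y (g * h) fun i q => by
    change actF L Y (g * h) n x.1 i ((g * h) • q) =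
      actF L Y g n (actF L Y h n x.1) i ((g * h) • q)
    rw [actF_smul, mul_smul, actF_smul, actF_smul, coc_mul]
    exact (Y i).act_mul _ _ n _)

open Classical in
/-- The family concentrated at one index. -/
noncomputable def sgl (i : ι) (q : G ⧸ L i) (n : ℕ) (y : (Y i).S n) :
    ∀ i, G ⧸ L i → (Y i).S n := fun i' q' =>
  if h : (⟨i', q'⟩ : Σ i, G ⧸ L i) = ⟨i, q⟩ then
    cast (congrArg (fun j : Σ i, G ⧸ L i => (Y j.1).S n) h.symm) y else (Y i').pt n

theorem sgl_same (i : ι) (q : G ⧸ L i) (n : ℕ) (y : (Y i).S n) : sgl L Y i q n y i q = y := by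
  unfold sgl
  rw [dif_pos rfl]
  rfl

theorem sgl_ne (i : ι) (q : G ⧸ L i) (n : ℕ) (y : (Y i).S n) (i' : ι) (q' : G ⧸ L i')
    (h : (⟨i', q'⟩ : Σ i, G ⧸ L i) ≠ ⟨i, q⟩) : sgl L Y i q n y i' q' = (Y i').pt n := by
  unfold sgl
  rw [dif_neg h]

/-- Functions on the total space: induction on the index. -/
theorem sgl_ext {i : ι} {q : G ⧸ L i} {n : ℕ} {y : (Y i).S n} {f : ∀ i, G ⧸ L i → (Y i).S n}
    (h : f i q = y) (h' : ∀ i' (q' : G ⧸ L i'), (⟨i', q'⟩ : Σ i, G ⧸ L i) ≠ ⟨i, q⟩ →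
      f i' q' = (Y i').pt n) : f = sgl L Y i q n y := by
  funext i' q'
  by_cases e : (⟨i', q'⟩ : Σ i, G ⧸ L i) = ⟨i, q⟩
  · cases e
    rw [sgl_same, h]
  · rw [sgl_ne L Y i q n y i' q' e, h' i' q' e]

theorem sgl_mem (i : ι) (q : G ⧸ L i) (n : ℕ) (y : (Y i).S n) (i₁ : ι) (q₁ : G ⧸ L i₁) (i₂ : ι)
    (q₂ : G ⧸ L i₂) (h₁ : sgl L Y i q n y i₁ q₁ ≠ (Y i₁).pt n)
    (h₂ : sgl L Y i q n y i₂ q₂ ≠ (Y i₂).pt n) :
    (⟨i₁, q₁⟩ : Σ i, G ⧸ L i) = ⟨i₂, q₂⟩ := by
  have e₁ : (⟨i₁, q₁⟩ : Σ i, G ⧸ L i) = ⟨i, q⟩ := by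
    by_contra h
    exact h₁ (sgl_ne L Y i q n y i₁ q₁ h)
  have e₂ : (⟨i₂, q₂⟩ : Σ i, G ⧸ L i) = ⟨i, q⟩ := by
    by_contra h
    exact h₂ (sgl_ne L Y i q n y i₂ q₂ h)
  rw [e₁, e₂]

theorem eq_sgl {n : ℕ} (f : (indB L Y).S n) (i : ι) (q : G ⧸ L i)
    (h : f.1 i q ≠ (Y i).pt n) : f.1 = sgl L Y i q n (f.1 i q) := by
  apply sgl_ext L Y rfl
  intro i' q' hne
  by_contra h'
  exact hne (f.2 i' q' i q h' h)

theorem indB_isFin [Finite ι] (hY : ∀ i, (Y i).IsFin) : (indB L Y).IsFin := by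
  classical
  have := Fintype.ofFinite ι
  constructor
  · intro n
    have h1 : ∀ i, Finite ((Y i).S n) := fun i => (hY i).1 n
    have h2 : ∀ i, Finite (G ⧸ L i) := fun i => inferInstance
    exact Subtype.finite
  · choose d hd using fun i => (hY i).2
    refine ⟨∑ i, d i, ?_⟩
    intro n f
    by_cases hf : ∃ i q, f.1 i q ≠ (Y i).pt n
    · obtain ⟨i, q, h⟩ := hf
      obtain ⟨k, hk, a, y, hy⟩ := hd i n (f.1 i q)
      refine ⟨k, hk.trans (Finset.single_le_sum (fun _ _ => Nat.zero_le _) (Finset.mem_univ i)),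
        a, ⟨sgl L Y i q k y, sgl_mem L Y i q k y⟩, ?_⟩
      apply Subtype.ext
      rw [eq_sgl L Y f i q h]
      apply sgl_ext
      · change (Y i).op a (sgl L Y i q k y i q) = _
        rw [sgl_same, hy]
      · intro i' q' hne
        change (Y i').op a (sgl L Y i q k y i' q') = _
        rw [sgl_ne L Y i q k y i' q' hne, (Y i').op_pt]
    · push Not at hf
      refine ⟨0, Nat.zero_le _, ⟨fun _ => 0, fun _ _ _ => le_rfl⟩, (indB L Y).pt 0, ?_⟩
      rw [(indB L Y).op_pt]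
      apply Subtype.ext
      funext i q
      exact (hf i q).symm

/-- The conjugate of `H` in the stabilizer coordinates of the coset `q`. -/
noncomputable def stab (H : Subgroup G) (i : ι) (q : G ⧸ L i) : Subgroup (L i) :=
  H.comap ((MulAut.conj (rep L i q)).toMonoidHom.comp (L i).subtype)

theorem mem_stab (H : Subgroup G) (i : ι) (q : G ⧸ L i) (k : L i) :
    k ∈ stab L H i q ↔ rep L i q * k.1 * (rep L i q)⁻¹ ∈ H := Iff.rfl

/-- The cosets fixed by `H`. -/
def Fx (H : Subgroup G) : Type := {j : Σ i, G ⧸ L i // ∀ h ∈ H, h • j.2 = j.2}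

theorem coc_of_fix {i : ι} {q : G ⧸ L i} {h : G} (hq : h • q = q) :
    (coc L i h q).1 = (rep L i q)⁻¹ * (h * rep L i q) := by
  change (rep L i (h • q))⁻¹ * (h * rep L i q) = _
  rw [hq]

theorem coc_mem_stab {H : Subgroup G} {i : ι} {q : G ⧸ L i} {h : G} (hh : h ∈ H)
    (hq : h • q = q) : coc L i h q ∈ stab L H i q := by
  rw [mem_stab, coc_of_fix L hq]
  have : rep L i q * ((rep L i q)⁻¹ * (h * rep L i q)) * (rep L i q)⁻¹ = h := by group
  rwa [this]

theorem coc_conj (i : ι) (q : G ⧸ L i) (k : L i)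
    (hq : (rep L i q * k.1 * (rep L i q)⁻¹) • q = q) :
    coc L i (rep L i q * k.1 * (rep L i q)⁻¹) q = k := by
  apply Subtype.ext
  rw [coc_of_fix L hq]
  group

theorem sgl_fixed {H : Subgroup G} {i : ι} {q : G ⧸ L i} (hq : ∀ h ∈ H, h • q = q) {n : ℕ}
    {y : (Y i).S n} (hy : ∀ k ∈ stab L H i q, ((Y i).act k).f n y = y) {h : G} (hh : h ∈ H) :
    actF L Y h n (sgl L Y i q n y) = sgl L Y i q n y := by
  apply sgl_ext
  · have h1 := actF_smul L Y h n (sgl L Y i q n y) i q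
    rw [hq h hh, sgl_same] at h1
    rw [h1]
    exact hy _ (coc_mem_stab L hh (hq h hh))
  · intro i' q' hne
    unfold actF
    rw [sgl_ne]
    · exact ((Y i').act _).f_pt n
    intro e
    apply hne
    have h2 : i' = i := congrArg Sigma.fst e
    subst h2
    have h3 : h⁻¹ • q' = q := eq_of_heq (Sigma.mk.inj e).2
    rw [← hq h hh, ← h3, smul_inv_smul]

theorem fixed_coset {H : Subgroup G} {n : ℕ} {f : (indB L Y).S n}
    (hf : ∀ g ∈ H, actF L Y g n f.1 = f.1) {i : ι} {q : G ⧸ L i} (h : f.1 i q ≠ (Y i).pt n) :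
    ∀ g ∈ H, g • q = q := by
  intro g hg
  have h1 : f.1 i (g • q) ≠ (Y i).pt n := by
    rw [← hf g hg, actF_smul]
    exact (act_ne_pt _ _ _ _).2 h
  have h2 := f.2 i (g • q) i q h1 h
  exact eq_of_heq (Sigma.mk.inj h2).2

theorem fixed_entry {H : Subgroup G} {n : ℕ} {f : (indB L Y).S n}
    (hf : ∀ g ∈ H, actF L Y g n f.1 = f.1) {i : ι} {q : G ⧸ L i} (hq : ∀ g ∈ H, g • q = q)
    (k : L i) (hk : k ∈ stab L H i q) : ((Y i).act k).f n (f.1 i q) = f.1 i q := by
  have hm := (mem_stab L H i q k).1 hk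
  have h1 := actF_smul L Y (rep L i q * k.1 * (rep L i q)⁻¹) n f.1 i q
  rw [hf _ hm, hq _ hm, coc_conj L i q k (hq _ hm)] at h1
  exact h1.symm

/-- Acyclicity of the fixed points of a wedge of induced complexes. -/
theorem acyclic_fix_ind [Finite ι] (E : Homology) (H : Subgroup G) :
    FixAcyclic E (ind L Y) H ↔
      ∀ i (q : G ⧸ L i), (∀ h ∈ H, h • q = q) → FixAcyclic E (Y i) (stab L H i q) := by
  rw [fixAcyclic_iff_fixB]
  have hfin : Finite (Fx L H) := by
    have h2 : ∀ i, Finite (G ⧸ L i) := fun i => inferInstance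
    exact Subtype.finite
  have key : E.Acyclic (fixB (ind L Y) H) ↔
      ∀ t : Fx L H, E.Acyclic (fixB (Y t.1.1) (stab L H t.1.1 t.1.2)) := by
    refine acyclic_wedge E (X := fixB (ind L Y) H) (T := Fx L H)
      (Y := fun t => fixB (Y t.1.1) (stab L H t.1.1 t.1.2))
      (fun t =>
        { f := fun n y => ⟨⟨sgl L Y t.1.1 t.1.2 n y.1, sgl_mem L Y t.1.1 t.1.2 n y.1⟩,
            fun h hh => Subtype.ext (sgl_fixed L Y t.2 y.2 hh)⟩
          f_pt := fun n => Subtype.ext (Subtype.ext (sgl_ext L Y rfl fun _ _ _ => rfl).symm)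
          f_op := fun a y => Subtype.ext (Subtype.ext (sgl_ext L Y
            (congrArg ((Y t.1.1).op a) (sgl_same L Y t.1.1 t.1.2 _ y.1))
            (fun i' q' hne => (congrArg ((Y i').op a)
              (sgl_ne L Y t.1.1 t.1.2 _ y.1 i' q' hne)).trans ((Y i').op_pt a))).symm) })
      (fun t =>
        { f := fun n x => ⟨x.1.1 t.1.1 t.1.2, fun k hk =>
            fixed_entry L Y (fun g hg => congrArg Subtype.val (x.2 g hg)) t.2 k hk⟩
          f_pt := fun n => rfl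
          f_op := fun a x => rfl })
      (fun t n y => Subtype.ext (sgl_same L Y t.1.1 t.1.2 n y.1)) ?_ ?_
    · intro t t' hne n y
      apply Subtype.ext
      exact sgl_ne L Y t.1.1 t.1.2 n y.1 t'.1.1 t'.1.2 (fun e => hne (Subtype.ext e.symm))
    · intro n x
      by_cases hx : ∃ i q, x.1.1 i q ≠ (Y i).pt n
      · left
        obtain ⟨i, q, h⟩ := hx
        have hf : ∀ g ∈ H, actF L Y g n x.1.1 = x.1.1 := fun g hg => congrArg Subtype.val (x.2 g hg)
        have hq := fixed_coset L Y hf h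
        refine ⟨⟨⟨i, q⟩, hq⟩, ⟨x.1.1 i q, fun k hk => fixed_entry L Y hf hq k hk⟩, ?_⟩
        exact Subtype.ext (Subtype.ext (eq_sgl L Y x.1 i q h).symm)
      · right
        push Not at hx
        exact Subtype.ext (Subtype.ext (funext fun i => funext fun q => hx i q))
  rw [key]
  constructor
  · intro h i q hq
    exact (fixAcyclic_iff_fixB E (Y i) (stab L H i q)).2 (h ⟨⟨i, q⟩, hq⟩)
  · intro h t
    exact (fixAcyclic_iff_fixB E (Y t.1.1) (stab L H t.1.1 t.1.2)).1 (h t.1.1 t.1.2 t.2)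

end Ind

end Vale.Agent.P241.F.Typ
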