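import Vale.Agent.P241.H700.TypeFun

/-! # The inclusions of primes and the type functions -/

set_option autoImplicit false

open CategoryTheory Opposite

namespace Vale.Agent.P241.F.Typ

open Vale.Agent.P241.F

theorem rep_conj {G : FiniteGrp.{0}} {ι : Type} (L : ι → Subgroup G) (H : Subgroup G) (i : ι)
    (q : G ⧸ L i) :
    stab L H i q = (Based.conj (rep L i q)⁻¹ H).subgroupOf (L i) := by
  ext k
  rw [mem_stab, Subgroup.mem_subgroupOf, Based.mem_conj, inv_inv]

theorem fixed_iff {G : FiniteGrp.{0}} {ι : Type} (L : ι → Subgroup G) (H : Subgroup G) (i : ι)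
    (q : G ⧸ L i) : (∀ h ∈ H, h • q = q) ↔ Based.conj (rep L i q)⁻¹ H ≤ L i := by
  have key : ∀ h : G, h • q = q ↔ (rep L i q)⁻¹ * h * rep L i q ∈ L i := by
    intro h
    have e1 : h • q = (QuotientGroup.mk (h * rep L i q) : G ⧸ L i) := by
      conv_lhs => rw [← mk_rep L i q]
      rfl
    rw [e1]
    constructor
    · intro e
      have e2 := e.symm
      conv_lhs at e2 => rw [← mk_rep L i q]
      rw [QuotientGroup.eq] at e2
      rwa [mul_assoc]
    · intro e
      conv_rhs => rw [← mk_rep L i q]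
      symm
      rw [QuotientGroup.eq, ← mul_assoc]
      exact e
  constructor
  · intro h x hx
    rw [Based.mem_conj, inv_inv] at hx
    have h1 := (key _).1 (h _ hx)
    have h2 : (rep L i q)⁻¹ * (rep L i q * x * (rep L i q)⁻¹) * rep L i q = x := by group
    rwa [h2] at h1
  · intro h x hx
    rw [key]
    apply h
    rw [Based.mem_conj, inv_inv]
    have h2 : rep L i q * ((rep L i q)⁻¹ * x * rep L i q) * (rep L i q)⁻¹ = x := by group
    rwa [h2]

theorem conj_of_mem {G : Type} [Group G] {H : Subgroup G} {g : G} (hg : g ∈ H) :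
    Based.conj g H = H := by
  ext x
  rw [Based.mem_conj]
  constructor
  · intro h
    have h1 := H.mul_mem (H.mul_mem hg h) (H.inv_mem hg)
    have h2 : g * (g⁻¹ * x * g) * g⁻¹ = x := by group
    rwa [h2] at h1
  · intro h
    exact H.mul_mem (H.mul_mem (H.inv_mem hg) h) hg

section

variable {p : ℕ} [hp : Fact p.Prime] {K : ℕ → Homology} {T : ℕ → Tel p}
  (hab : ∀ A : FiniteGrp.{0}, IsPGroup p A → IsMulCommutative A → ∀ n r,
    Smith (K (n + r)) (K n) (⊥ : Subgroup A) ↔ Group.rank A ≤ r)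
  (halive : ∀ t, ∀ A : FiniteGrp.{0}, IsPGroup p A → ¬ (T t).Dead A →
    Smith (K (t + 1)) (K 0) (⊥ : Subgroup A))
  {B : ℕ → FiniteGrp.{0} → Homology}
  (hN : ∀ (t : ℕ) (V : FiniteGrp.{0}) (Y : BSS), Y.IsFin → ¬ (B t V).Acyclic Y →
      ∃ j, ¬ (K j).Acyclic Y ∧ ∀ A : FiniteGrp.{0}, IsPGroup p A → IsMulCommutative A →
        Group.rank A ≤ j → ¬ (T t).Dead (.of (V × A)))
  (hR : ∀ W : FiniteGrp.{0}, IsPGroup p W → ∀ (S : GCx W) (r : ℕ), S.IsFin →
      (∀ V : Subgroup W, V ≠ ⊥ → ∀ t < r, FixAcyclic (B t (.of V)) S V) → Attachable K r S)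
include hab halive hN hR

/-- Every admissible function is the type function of a finite complex. -/
theorem exists_of_type {G : FiniteGrp.{0}} (hG : IsPGroup p G) (f : Subgroup G → ℕ∞)
    (hconj : ∀ (g : G) (H : Subgroup G), f (Based.conj g H) = f H)
    (hle : ∀ H L : Subgroup G, H ≤ L → f H ≤ f L + ell (H.subgroupOf L)) :
    ∃ X : GCx G, X.IsFin ∧ IsType K X f := by
  classical
  let ι : Type := {L : Subgroup G // f L ≠ ⊤}
  let L : ι → Subgroup G := fun i => i.1
  have hY : ∀ i : ι, ∃ Y : GCx (.of (L i)), Y.IsFin ∧ ∀ (A : Subgroup (L i)) (j : ℕ),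
      FixAcyclic (K j) Y A ↔ j < (f i.1).toNat + ell A := fun i =>
    exists_universal hab halive hN hR (.of (L i)) (hG.to_subgroup i.1) (f i.1).toNat
  choose Y hY1 hY2 using hY
  have hf : ∀ i : ι, ((f i.1).toNat : ℕ∞) = f i.1 := fun i => ENat.natCast_toNat i.2
  refine ⟨ind L Y, indB_isFin L Y hY1, ?_⟩
  intro H j
  rw [acyclic_fix_ind L Y]
  constructor
  · intro h
    by_cases hH : f H = ⊤
    · rw [hH]
      exact ENat.natCast_lt_top j
    · let q : G ⧸ L ⟨H, hH⟩ := QuotientGroup.mk 1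
      have hr : rep L ⟨H, hH⟩ q ∈ H := by
        have h1 := mk_rep L ⟨H, hH⟩ q
        have h2 : (QuotientGroup.mk (rep L ⟨H, hH⟩ q) : G ⧸ H) = QuotientGroup.mk 1 := h1
        rw [QuotientGroup.eq] at h2
        have h3 := H.inv_mem h2
        rwa [mul_one, inv_inv] at h3
      have hc : Based.conj (rep L ⟨H, hH⟩ q)⁻¹ H = H := conj_of_mem (H.inv_mem hr)
      have h1 := h ⟨H, hH⟩ q ((fixed_iff L H _ q).2 (by rw [hc]))
      rw [rep_conj, hc] at h1
      have h2 := (hY2 ⟨H, hH⟩ _ j).1 h1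
      have h3 : ell (H.subgroupOf (L ⟨H, hH⟩)) = 0 := by
        have : H.subgroupOf (L ⟨H, hH⟩) = ⊤ := Subgroup.subgroupOf_self H
        rw [this]
        exact ell_top'
      rw [h3, Nat.add_zero] at h2
      rw [← hf ⟨H, hH⟩]
      exact_mod_cast h2
  · intro hj i q hq
    have hle' := (fixed_iff L H i q).1 hq
    rw [rep_conj]
    refine (hY2 i _ j).2 ?_
    have h1 := hle _ _ hle'
    rw [hconj] at h1
    have h2 : (j : ℕ∞) < f i.1 + ell ((Based.conj (rep L i q)⁻¹ H).subgroupOf (L i)) :=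
      lt_of_lt_of_le hj h1
    rw [← hf i] at h2
    exact_mod_cast h2

/-- All inclusions: the implication from `H` at height `m` to `L` at height `n`. -/
theorem pairs {G : FiniteGrp.{0}} (hG : IsPGroup p G) (H L : Subgroup G) (m n : ℕ) :
    (∀ X : GCx G, X.IsFin → FixAcyclic (K m) X H → FixAcyclic (K n) X L) ↔
      ∃ g : G, Based.conj g H ≤ L ∧ n + ell ((Based.conj g H).subgroupOf L) ≤ m := by
  constructor
  · intro h
    by_contra hcon
    push Not at hcon
    obtain ⟨Y, hY1, hY2⟩ := exists_universal hab halive hN hR (.of L) (hG.to_subgroup L) n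
    have h1 := h (ind (fun _ : Unit => L) (fun _ => Y))
      (indB_isFin (fun _ : Unit => L) (fun _ => Y) fun _ => hY1)
      ((acyclic_fix_ind (fun _ : Unit => L) (fun _ => Y) (K m) H).2 fun i q hq => by
        rw [rep_conj]
        exact (hY2 _ m).2 (hcon _ ((fixed_iff (fun _ : Unit => L) H i q).1 hq)))
    have h2 := (acyclic_fix_ind (fun _ : Unit => L) (fun _ => Y) (K n) L).1 h1 ()
      (QuotientGroup.mk 1)
    have hr : rep (fun _ : Unit => L) () (QuotientGroup.mk 1) ∈ L := by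
      have h1 := mk_rep (fun _ : Unit => L) () (QuotientGroup.mk 1)
      rw [QuotientGroup.eq] at h1
      have h3 := L.inv_mem h1
      rwa [mul_one, inv_inv] at h3
    have hc := conj_of_mem (L.inv_mem hr)
    have h3 := h2 ((fixed_iff (fun _ : Unit => L) L () _).2 (by rw [hc]))
    rw [rep_conj, hc] at h3
    have h4 := (hY2 _ n).1 h3
    have h5 : ell (L.subgroupOf L) = 0 := by
      rw [Subgroup.subgroupOf_self]
      exact ell_top'
    have h6 : n < n + ell (L.subgroupOf L) := h4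
    rw [h5] at h6
    exact lt_irrefl _ h6
  · rintro ⟨g, hgL, hle⟩ X hX hH
    obtain ⟨r, rfl⟩ := Nat.exists_eq_add_of_le (show n ≤ m by omega)
    have h1 := (fixAcyclic_conj (K (n + r)) X H g).2 hH
    have h2 := smith_of_ell_le K hab (.of L) (hG.to_subgroup L)
      ((Based.conj g H).subgroupOf L) n r (Nat.le_of_add_le_add_left hle) (resG X L) hX
      ((fixAcyclic_resG _ X hgL).2 h1)
    have h3 : FixAcyclic (G := .of L) (K n) (resG X L) (L.subgroupOf L) := by
      rw [Subgroup.subgroupOf_self]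
      exact h2
    exact (fixAcyclic_resG _ X le_rfl).1 h3

end

/-- The complete statement for finite `p`-groups. -/
theorem full (p : ℕ) [Fact p.Prime] (K : ℕ → Homology)
    (T : ℕ → Tel p) (B : ℕ → FiniteGrp.{0} → Homology)
    (h₁ : ∀ A : FiniteGrp.{0}, IsPGroup p A → IsMulCommutative A → ∀ n r,
      Smith (K (n + r)) (K n) (⊥ : Subgroup A) ↔ Group.rank A ≤ r)
    (h₂ : ∀ t V (X : GCx V), X.IsFin → (K (t + 1)).Acyclic X.toBSS → FixAcyclic (B t V) X ⊤)
    (h₃ : ∀ t V (Y : BSS), ¬ (T t).Dead V → (B t V).Acyclic Y → (K 0).Acyclic Y)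
    (h₄ : ∀ t V (Y : BSS), Y.IsFin → ¬ (B t V).Acyclic Y → ∃ j, ¬ (K j).Acyclic Y ∧
      ∀ A : FiniteGrp.{0}, IsPGroup p A → IsMulCommutative A → Group.rank A ≤ j →
        ¬ (T t).Dead (.of (V × A)))
    (h₅ : ∀ W : FiniteGrp.{0}, IsPGroup p W → ∀ (S : GCx W) r, S.IsFin →
      (∀ V : Subgroup W, V ≠ ⊥ → ∀ t < r, FixAcyclic (B t (.of V)) S V) → Attachable K r S)
    (G : FiniteGrp.{0}) (hG : IsPGroup p G) :
    (∀ (H : Subgroup G) (n r : ℕ), Smith (K (n + r)) (K n) H ↔ ell H ≤ r) ∧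
    (∀ n, ∃ X : GCx G, X.IsFin ∧ ∀ (H : Subgroup G) (j : ℕ),
      FixAcyclic (K j) X H ↔ j < n + ell H) ∧
    (∀ (H L : Subgroup G) (m n : ℕ),
      (∀ X : GCx G, X.IsFin → FixAcyclic (K m) X H → FixAcyclic (K n) X L) ↔
        ∃ g : G, cj g H ≤ L ∧ n + ell ((cj g H).subgroupOf L) ≤ m) ∧
    (∀ X : GCx G, X.IsFin → ∃! f : Subgroup G → ℕ∞, IsType K X f) ∧
    ∀ f : Subgroup G → ℕ∞, (∃ X : GCx G, X.IsFin ∧ IsType K X f) ↔
      (∀ (g : G) (H : Subgroup G), f (cj g H) = f H) ∧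
        ∀ H L : Subgroup G, H ≤ L → f H ≤ f L + ell (H.subgroupOf L) := by
  have halive : ∀ t, ∀ A : FiniteGrp.{0}, IsPGroup p A → ¬ (T t).Dead A →
      Smith (K (t + 1)) (K 0) (⊥ : Subgroup A) := by
    intro t A _ hA X hX h
    obtain ⟨Y, i, _, hi⟩ := exists_isFixF X hX ⊤
    rw [fixAcyclic_iffF _ hi]
    exact h₃ t A Y hA ((fixAcyclic_iffF _ hi).1 (h₂ t A X hX ((fixAcyclic_bot _ X).1 h)))
  refine ⟨fun H n r => F.main p K T B h₁ h₂ h₃ h₄ h₅ G hG H n r,
    fun n => exists_universal h₁ halive h₄ h₅ G hG n,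
    fun H L m n => pairs h₁ halive h₄ h₅ hG H L m n, fun X hX => ?_, fun f => ⟨?_, ?_⟩⟩
  · obtain ⟨f, hf⟩ := exists_isType h₁ X hX
    exact ⟨f, hf, fun f' hf' => hf'.unique hf⟩
  · rintro ⟨X, hX, hf⟩
    exact ⟨fun g H => hf.conj g H, fun H L hHL => hf.le h₁ hG hX hHL⟩
  · rintro ⟨hc, hl⟩
    exact exists_of_type h₁ halive h₄ h₅ hG f hc hl

end Vale.Agent.P241.F.Typ
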