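import Vale.Agent.P241.H700.Univ
import Vale.Agent.P241.H700.Defs

/-! # Classification of the type functions of finite `G`-complexes, `G` a finite `p`-group -/

set_option autoImplicit false

open CategoryTheory Opposite

namespace Vale.Agent.P241.F.Typ

open Vale.Agent.P241.F

/-! ### Restriction and conjugation -/

/-- Restriction to a subgroup. -/
def resG {G : FiniteGrp.{0}} (X : GCx G) (L : Subgroup G) : GCx (.of L) where
  toBSS := X.toBSS
  act k := X.act k.1
  act_one := X.act_one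
  act_mul a b := X.act_mul a.1 b.1

theorem fixAcyclic_resG (E : Homology) {G : FiniteGrp.{0}} (X : GCx G) {H L : Subgroup G}
    (h : H ≤ L) : FixAcyclic (G := .of L) E (resG X L) (H.subgroupOf L) ↔ FixAcyclic E X H := by
  refine (fixAcyclic_iffF E (G := .of L) (X := resG X L) (H := H.subgroupOf L) (Y := fixB X H)
    (i := ⟨fun n x => x.1, fun _ => rfl, fun _ _ => rfl⟩) ?_).trans
      (fixAcyclic_iff_fixB E X H).symm
  intro n
  refine ⟨fun x y h => Subtype.ext h, fun x => ⟨fun hx => ?_, ?_⟩⟩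
  · exact ⟨⟨x, fun g hg => hx ⟨g, h hg⟩ hg⟩, rfl⟩
  · rintro ⟨y, rfl⟩
    intro g hg
    exact y.2 g.1 hg

theorem fixAcyclic_conj_of (E : Homology) {G : FiniteGrp.{0}} (X : GCx G) (H : Subgroup G) (g : G)
    (h : FixAcyclic E X H) : FixAcyclic E X (Based.conj g H) := by
  rw [fixAcyclic_iff_fixB] at h ⊢
  refine acyclic_of_retract E (X := fixB X H) (Y := fixB X (Based.conj g H))
    ⟨fun n x => ⟨(X.act g⁻¹).f n x.1, fun k hk => ?_⟩,
      fun n => Subtype.ext ((X.act g⁻¹).f_pt n), fun a x => Subtype.ext ((X.act g⁻¹).f_op a x.1)⟩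
    ⟨fun n x => ⟨(X.act g).f n x.1, fun k hk => ?_⟩,
      fun n => Subtype.ext ((X.act g).f_pt n), fun a x => Subtype.ext ((X.act g).f_op a x.1)⟩
    (fun n y => Subtype.ext ?_) h
  · have h1 : g * k * g⁻¹ ∈ Based.conj g H := by
      rw [Based.mem_conj]
      have : g⁻¹ * (g * k * g⁻¹) * g = k := by group
      rwa [this]
    rw [← X.act_mul]
    have h2 : k * g⁻¹ = g⁻¹ * (g * k * g⁻¹) := by group
    rw [h2, X.act_mul, x.2 _ h1]
  · rw [Based.mem_conj] at hk
    rw [← X.act_mul]
    have h2 : k * g = g * (g⁻¹ * k * g) := by group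
    rw [h2, X.act_mul, x.2 _ hk]
  · change (X.act g).f n ((X.act g⁻¹).f n y.1) = y.1
    rw [← X.act_mul, mul_inv_cancel, X.act_one]

theorem fixAcyclic_conj (E : Homology) {G : FiniteGrp.{0}} (X : GCx G) (H : Subgroup G) (g : G) :
    FixAcyclic E X (Based.conj g H) ↔ FixAcyclic E X H := by
  refine ⟨fun h => ?_, fixAcyclic_conj_of E X H g⟩
  have := fixAcyclic_conj_of E X (Based.conj g H) g⁻¹ h
  rwa [Based.conj_conj, inv_mul_cancel, Based.conj_one] at this

/-! ### Type functions -/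

theorem enat_ext {a b : ℕ∞} (h : ∀ j : ℕ, (j : ℕ∞) < a ↔ (j : ℕ∞) < b) : a = b := by
  apply le_antisymm
  · by_contra hlt
    push Not at hlt
    lift b to ℕ using ne_top_of_lt hlt
    exact lt_irrefl _ ((h b).1 hlt)
  · by_contra hlt
    push Not at hlt
    lift a to ℕ using ne_top_of_lt hlt
    exact lt_irrefl _ ((h a).2 hlt)

theorem IsType.unique {K : ℕ → Homology} {G : FiniteGrp.{0}} {X : GCx G} {f f' : Subgroup G → ℕ∞}
    (h : IsType K X f) (h' : IsType K X f') : f = f' :=
  funext fun H => enat_ext fun j => (h H j).symm.trans (h' H j)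

section

variable {p : ℕ} [hp : Fact p.Prime] {K : ℕ → Homology}
  (hab : ∀ A : FiniteGrp.{0}, IsPGroup p A → IsMulCommutative A → ∀ n r,
    Smith (K (n + r)) (K n) (⊥ : Subgroup A) ↔ Group.rank A ≤ r)
include hab

omit hp in
theorem fixAcyclic_mono {G : FiniteGrp.{0}} (X : GCx G) (hX : X.IsFin) (H : Subgroup G) {n m : ℕ}
    (h : n ≤ m) (hm : FixAcyclic (K m) X H) : FixAcyclic (K n) X H := by
  obtain ⟨r, rfl⟩ := Nat.exists_eq_add_of_le h
  obtain ⟨Y, i, hY, hi⟩ := exists_isFixF X hX H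
  exact (fixAcyclic_iffF _ hi).2 (acyclic_mono K hab n r Y hY ((fixAcyclic_iffF _ hi).1 hm))

omit hp in
theorem exists_isType {G : FiniteGrp.{0}} (X : GCx G) (hX : X.IsFin) :
    ∃ f : Subgroup G → ℕ∞, IsType K X f := by
  classical
  refine ⟨fun H => if h : ∃ j, ¬ FixAcyclic (K j) X H then (Nat.find h : ℕ) else ⊤, ?_⟩
  intro H j
  dsimp only
  by_cases h : ∃ j, ¬ FixAcyclic (K j) X H
  · rw [dif_pos h, Nat.cast_lt]
    constructor
    · intro hj
      by_contra hle
      push Not at hle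
      exact Nat.find_spec h (fixAcyclic_mono hab X hX H hle hj)
    · intro hj
      by_contra hn
      exact Nat.find_min h hj hn
  · rw [dif_neg h]
    push Not at h
    exact ⟨fun _ => ENat.natCast_lt_top j, fun _ => h j⟩

omit hab hp in
theorem IsType.conj {G : FiniteGrp.{0}} {X : GCx G} {f : Subgroup G → ℕ∞} (h : IsType K X f)
    (g : G) (H : Subgroup G) : f (Based.conj g H) = f H :=
  enat_ext fun j => by rw [← h, ← h, fixAcyclic_conj]

theorem IsType.le {G : FiniteGrp.{0}} (hG : IsPGroup p G) {X : GCx G} (hX : X.IsFin)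
    {f : Subgroup G → ℕ∞} (h : IsType K X f) {H L : Subgroup G} (hHL : H ≤ L) :
    f H ≤ f L + ell (H.subgroupOf L) := by
  by_contra hlt
  push Not at hlt
  have hL : f L ≠ ⊤ := by
    intro e
    rw [e, top_add] at hlt
    exact not_top_lt hlt
  obtain ⟨m, hm⟩ := ENat.ne_top_iff_exists.1 hL
  rw [← hm] at hlt
  have h1 : FixAcyclic (K (m + ell (H.subgroupOf L))) X H := (h H _).2 (by exact_mod_cast hlt)
  have h2 := smith_of_ell_le K hab (.of L) (hG.to_subgroup L) (H.subgroupOf L) m _ le_rfl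
    (resG X L) hX ((fixAcyclic_resG _ X hHL).2 h1)
  have h3 : FixAcyclic (G := .of L) (K m) (resG X L) (L.subgroupOf L) := by
    rw [Subgroup.subgroupOf_self]
    exact h2
  have h4 := (h L m).1 ((fixAcyclic_resG _ X le_rfl).1 h3)
  rw [← hm] at h4
  exact lt_irrefl _ h4

end

end Vale.Agent.P241.F.Typ
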