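import Vale.Agent.P241.Bdl.B2

/-! # Finite wedges of based simplicial sets, and models of fixed points -/

set_option autoImplicit false

namespace Vale.Agent.P241.F.Typ

open Vale.Agent.P241.F

/-- A sub-object of a based simplicial set, given by a predicate. -/
def subB (X : BSS) (P : ∀ n, X.S n → Prop) (hpt : ∀ n, P n (X.pt n))
    (hop : ∀ {m n} (a : Op m n) (x : X.S n), P n x → P m (X.op a x)) : BSS where
  S n := {x : X.S n // P n x}
  pt n := ⟨X.pt n, hpt n⟩
  op a x := ⟨X.op a x.1, hop a x.1 x.2⟩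
  op_pt a := Subtype.ext (X.op_pt a)
  op_id x := Subtype.ext (X.op_id x.1)
  op_comp a b x := Subtype.ext (X.op_comp a b x.1)

theorem acyclic_ptBSS (E : Homology) : E.Acyclic ptBSS := by
  intro j x
  rw [E.eq_zero_iff]
  exact ⟨x, E.map_id j (ptMap ptBSS) (fun _ _ => rfl) x⟩

theorem acyclic_of_retract (E : Homology) {X Y : BSS} (f : Map Y X) (g : Map X Y)
    (h : ∀ n y, g.f n (f.f n y) = y) (hX : E.Acyclic X) : E.Acyclic Y := by
  intro j y
  have h1 : E.map j (idMap Y) y = y := E.map_id j (idMap Y) (fun _ _ => rfl) y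
  have h2 : E.map j (idMap Y) y = E.map j g (E.map j f y) :=
    E.map_comp j f g (idMap Y) (fun n x => (h n x).symm) y
  rw [← h1, h2, hX j (E.map j f y), E.map_zero]

theorem acyclic_of_cofiber (E : Homology) {A X Q : BSS} (i : Map A X) (q : Map X Q)
    (h : IsCofiber i q) (hA : E.Acyclic A) (hQ : E.Acyclic Q) : E.Acyclic X := by
  obtain ⟨δ, hδ⟩ := E.exact i q h
  intro j x
  obtain ⟨a, rfl⟩ := ((hδ j).1 x).1 (hQ j _)
  rw [hA j a, E.map_zero]

theorem acyclic_of_subsingleton (E : Homology) {X : BSS} (h : ∀ n (x : X.S n), x = X.pt n) :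
    E.Acyclic X :=
  acyclic_of_retract E (X := ptBSS) (Y := X) ⟨fun _ _ => (), fun _ => rfl, fun _ _ => rfl⟩
    (ptMap X) (fun n y => (h n y).symm) (acyclic_ptBSS E)

section Wedge

variable (E : Homology) {X : BSS} {T : Type} {Y : T → BSS} (i : ∀ t, Map (Y t) X)
  (r : ∀ t, Map X (Y t))

/-- The part of a wedge with colours in `s`. -/
def part (s : Set T) : BSS :=
  subB X (fun n x => ∀ t ∉ s, (r t).f n x = (Y t).pt n) (fun n t _ => (r t).f_pt n)
    (fun a x h t ht => by rw [(r t).f_op, h t ht, (Y t).op_pt])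

variable (hri : ∀ t n y, (r t).f n ((i t).f n y) = y)
  (hne : ∀ t t', t ≠ t' → ∀ n y, (r t').f n ((i t).f n y) = (Y t').pt n)
  (hcov : ∀ n (x : X.S n), (∃ t y, (i t).f n y = x) ∨ x = X.pt n)
include hri hne hcov

omit hne in
theorem eq_of_ne {t : T} (hne' : ∀ t', t' ≠ t → ∀ n y, (r t).f n ((i t').f n y) = (Y t).pt n)
    {n : ℕ} {x : X.S n} (h : (r t).f n x ≠ (Y t).pt n) : (i t).f n ((r t).f n x) = x := by
  obtain ⟨t', y, h1⟩ | h1 := hcov n x
  · subst h1
    by_cases ht : t' = t
    · subst ht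
      rw [hri]
    · exact absurd (hne' t' ht n y) h
  · subst h1
    exact absurd ((r t).f_pt n) h

theorem acyclic_part_insert (hT : ∀ t, E.Acyclic (Y t)) (s : Set T) (t : T) (ht : t ∉ s)
    (hs : E.Acyclic (part r s)) : E.Acyclic (part r (insert t s)) := by
  refine acyclic_of_cofiber E (A := part r s) (X := part r (insert t s)) (Q := Y t)
    ⟨fun n x => ⟨x.1, fun t' ht' => x.2 t' (fun h => ht' (Or.inr h))⟩, fun _ => rfl,
      fun _ _ => rfl⟩
    ⟨fun n x => (r t).f n x.1, fun n => (r t).f_pt n, fun a x => (r t).f_op a x.1⟩ ?_ hs (hT t)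
  have key : ∀ {n : ℕ} {x : X.S n}, (r t).f n x ≠ (Y t).pt n →
      (i t).f n ((r t).f n x) = x := fun {n x} h =>
    eq_of_ne i r hri hcov (fun t' ht' n y => hne t' t ht' n y) h
  intro n
  refine ⟨?_, ?_, ?_⟩
  · intro x y h
    have h' : x.1 = y.1 := congrArg (fun z : (part r (insert t s)).S n => z.1) h
    exact Subtype.ext h'
  · intro y
    refine ⟨⟨(i t).f n y, ?_⟩, hri t n y⟩
    intro t' ht'
    exact hne t t' (fun h => ht' (Or.inl h.symm)) n y
  · intro x y
    constructor
    · intro h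
      by_cases h0 : (r t).f n x.1 = (Y t).pt n
      · right
        have h1 : (r t).f n y.1 = (Y t).pt n := by
          change (r t).f n x.1 = (r t).f n y.1 at h
          rw [← h, h0]
        refine ⟨⟨⟨x.1, fun t' ht' => ?_⟩, rfl⟩, ⟨⟨y.1, fun t' ht' => ?_⟩, rfl⟩⟩
        · by_cases e : t' = t
          · subst e; exact h0
          · exact x.2 t' (fun h => h.elim e ht')
        · by_cases e : t' = t
          · subst e; exact h1
          · exact y.2 t' (fun h => h.elim e ht')
      · left
        apply Subtype.ext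
        change (r t).f n x.1 = (r t).f n y.1 at h
        rw [← key h0, h, key (by rwa [← h])]
    · rintro (rfl | ⟨⟨a, rfl⟩, ⟨b, rfl⟩⟩)
      · rfl
      · change (r t).f n a.1 = (r t).f n b.1
        rw [a.2 t ht, b.2 t ht]

/-- A finite wedge is acyclic iff its summands are. -/
theorem acyclic_wedge [Finite T] : E.Acyclic X ↔ ∀ t, E.Acyclic (Y t) := by
  classical
  constructor
  · intro h t
    exact acyclic_of_retract E (i t) (r t) (hri t) h
  · intro h
    have hall : ∀ s : Finset T, E.Acyclic (part r (s : Set T)) := by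
      intro s
      induction s using Finset.induction_on with
      | empty =>
        apply acyclic_of_subsingleton
        rintro n ⟨x, hx⟩
        apply Subtype.ext
        change x = X.pt n
        obtain ⟨t, y, h1⟩ | h1 := hcov n x
        · subst h1
          have h2 := hx t (by simp)
          rw [hri] at h2
          rw [h2, (i t).f_pt]
        · exact h1
      | insert t s ht ih =>
        have := acyclic_part_insert E i r hri hne hcov h (s : Set T) t (by simpa using ht) ih
        rwa [← Finset.coe_insert] at this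
    have := Fintype.ofFinite T
    refine acyclic_of_retract E (X := part r ((Finset.univ : Finset T) : Set T)) (Y := X)
      ⟨fun n x => ⟨x, fun t ht => absurd (by simp) ht⟩, fun _ => rfl, fun _ _ => rfl⟩
      ⟨fun n x => x.1, fun _ => rfl, fun _ _ => rfl⟩ (fun _ _ => rfl) (hall Finset.univ)

end Wedge

/-- The fixed points. -/
def fixB {G : FiniteGrp.{0}} (X : GCx G) (H : Subgroup G) : BSS :=
  subB X.toBSS (fun n x => ∀ g ∈ H, (X.act g).f n x = x) (fun n g _ => (X.act g).f_pt n)
    (fun a x h g hg => by rw [(X.act g).f_op, h g hg])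

theorem fixAcyclic_iff_fixB (E : Homology) {G : FiniteGrp.{0}} (X : GCx G) (H : Subgroup G) :
    FixAcyclic E X H ↔ E.Acyclic (fixB X H) :=
  fixAcyclic_iffF E (X := X) (H := H) (Y := fixB X H)
    (i := ⟨fun n x => x.1, fun _ => rfl, fun _ _ => rfl⟩)
    (fun n => ⟨fun x y h => Subtype.ext h, fun x => ⟨fun h => ⟨⟨x, h⟩, rfl⟩, by
      rintro ⟨y, rfl⟩
      exact y.2⟩⟩)

end Vale.Agent.P241.F.Typ
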